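import Vale.Agent.P273.H857.Stm
import Vale.Agent.P273.H604.ParHol

/-!
# Row GP-INF: the structure of the primitives at infinity
-/

open Complex Set Filter Topology MeasureTheory
open scoped ContDiff

namespace Vale.Agent.P273.H233.Inf

open Vale.Agent.P273.H857

noncomputable section

/-- the product of the square roots in the coordinate at infinity -/
def pr (b : C6) (w : ℂ) : ℂ := ∏ l, (1 - b l * w) ^ (1 / 2 : ℂ)

/-- the form in the coordinate at infinity -/
def hh (k : ℕ) (b : C6) (w : ℂ) : ℂ := w ^ (1 - k) / pr b w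

theorem re_pos {β w : ℂ} (h : ‖β‖ * ‖w‖ < 1) : 0 < (1 - β * w).re := by
  have h1 : (β * w).re ≤ ‖β * w‖ := re_le_norm _
  rw [norm_mul] at h1
  simp only [sub_re, one_re]
  linarith

theorem slit {β w : ℂ} (h : ‖β‖ * ‖w‖ < 1) : 1 - β * w ∈ slitPlane :=
  mem_slitPlane_iff.2 (Or.inl (re_pos h))

theorem norm_le_C6 (b : C6) (l : Fin 6) : ‖b l‖ ≤ ‖b‖ := norm_le_pi_norm b l

theorem prod_lt {b : C6} {w : ℂ} (h : ‖b‖ * ‖w‖ < 1) (l : Fin 6) : ‖b l‖ * ‖w‖ < 1 :=
  (mul_le_mul_of_nonneg_right (norm_le_C6 b l) (norm_nonneg w)).trans_lt h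

theorem pr_ne_zero {b : C6} {w : ℂ} (h : ‖b‖ * ‖w‖ < 1) : pr b w ≠ 0 := by
  rw [pr, Finset.prod_ne_zero_iff]
  intro l _ h0
  have := cpow_half_mul_self (1 - b l * w)
  rw [h0, mul_zero] at this
  exact slitPlane_ne_zero (slit (prod_lt h l)) this.symm

theorem pr_zero (b : C6) : pr b 0 = 1 := by simp [pr]

/-- joint analyticity of `pr` -/
theorem analyticAt_pr {p : C6 × ℂ} (h : ‖p.1‖ * ‖p.2‖ < 1) :
    AnalyticAt ℂ (fun q : C6 × ℂ => pr q.1 q.2) p := by
  unfold pr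
  refine Finset.analyticAt_fun_prod _ fun l _ => ?_
  have h1 : AnalyticAt ℂ (fun q : C6 × ℂ => q.1 l) p :=
    ((ContinuousLinearMap.proj (R := ℂ) (φ := fun _ : Fin 6 => ℂ) l).comp
      (ContinuousLinearMap.fst ℂ C6 ℂ)).analyticAt _
  have h2 : AnalyticAt ℂ (fun q : C6 × ℂ => q.2) p := (ContinuousLinearMap.snd ℂ C6 ℂ).analyticAt _
  exact (analyticAt_const.sub (h1.mul h2)).cpow analyticAt_const (slit (prod_lt h l))

theorem differentiableAt_pr {p : C6 × ℂ} (h : ‖p.1‖ * ‖p.2‖ < 1) :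
    DifferentiableAt ℂ (fun q : C6 × ℂ => pr q.1 q.2) p := (analyticAt_pr h).differentiableAt

theorem differentiableAt_pr_right {b : C6} {w : ℂ} (h : ‖b‖ * ‖w‖ < 1) :
    DifferentiableAt ℂ (pr b) w := by
  have h1 : DifferentiableAt ℂ (fun w : ℂ => ((b, w) : C6 × ℂ)) w := by fun_prop
  exact (differentiableAt_pr (p := (b, w)) h).comp w h1

theorem continuousAt_pr {p : C6 × ℂ} (h : ‖p.1‖ * ‖p.2‖ < 1) :
    ContinuousAt (fun q : C6 × ℂ => pr q.1 q.2) p := (differentiableAt_pr h).continuousAt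

theorem Ki_eq (k : ℕ) (b : C6) (w : ℂ) :
    Ki k b w = -(w ^ (2 - k) * ∫ r in (0 : ℝ)..1, (r : ℂ) ^ (1 - k) / pr b (r * w)) := by
  unfold Ki pr
  simp only [mul_assoc]

theorem Ki_zero {k : ℕ} (hk : k ≤ 1) (b : C6) : Ki k b 0 = 0 := by
  rw [Ki_eq, zero_pow (by omega), zero_mul, neg_zero]

/-- the integral form of `Ki` -/
theorem Ki_eq_int {k : ℕ} (hk : k ≤ 1) (b : C6) (w : ℂ) :
    Ki k b w = -∫ r in (0 : ℝ)..1, w * hh k b (r * w) := by
  rw [Ki_eq, ← intervalIntegral.integral_const_mul]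
  congr 1
  refine intervalIntegral.integral_congr fun r _ => ?_
  simp only [hh]
  interval_cases k
  · simp only [Nat.sub_zero, pow_one]; ring
  · norm_num

/-- the domain of `Ki` -/
def UK (R : ℝ) : Set (C6 × ℂ) := {p | ‖p.1‖ < R ∧ ‖p.2‖ * R < 1}

theorem isOpen_UK (R : ℝ) : IsOpen (UK R) := by
  have h1 : IsOpen {p : C6 × ℂ | ‖p.1‖ < R} := isOpen_lt continuous_fst.norm continuous_const
  have h2 : IsOpen {p : C6 × ℂ | ‖p.2‖ * R < 1} :=
    isOpen_lt (continuous_snd.norm.mul continuous_const) continuous_const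
  exact h1.inter h2

theorem UK_lt {R : ℝ} {p : C6 × ℂ} (hp : p ∈ UK R) {r : ℝ} (hr : r ∈ Icc (0 : ℝ) 1) :
    ‖p.1‖ * ‖(r : ℂ) * p.2‖ < 1 := by
  obtain ⟨h1, h2⟩ := hp
  have h3 : ‖(r : ℂ)‖ ≤ 1 := by
    rw [norm_real, Real.norm_eq_abs, abs_of_nonneg hr.1]; exact hr.2
  rw [norm_mul]
  calc ‖p.1‖ * (‖(r : ℂ)‖ * ‖p.2‖) ≤ R * (1 * ‖p.2‖) := by
        have h0 : 0 ≤ R := (norm_nonneg p.1).trans h1.le
        gcongr
    _ = ‖p.2‖ * R := by ring
    _ < 1 := h2

theorem contAux {p : C6 × ℂ} {r : ℝ} (h : ‖p.1‖ * ‖(r : ℂ) * p.2‖ < 1) :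
    ContinuousAt (fun q : (C6 × ℂ) × ℝ => pr q.1.1 (q.2 * q.1.2)) (p, r) := by
  have h2 : ContinuousAt (fun q : (C6 × ℂ) × ℝ => ((q.1.1, (q.2 : ℂ) * q.1.2) : C6 × ℂ))
      (p, r) := by
    refine Continuous.continuousAt ?_
    exact (continuous_fst.comp continuous_fst).prodMk
      ((continuous_ofReal.comp continuous_snd).mul (continuous_snd.comp continuous_fst))
  exact ContinuousAt.comp (g := fun q : C6 × ℂ => pr q.1 q.2)
    (f := fun q : (C6 × ℂ) × ℝ => ((q.1.1, (q.2 : ℂ) * q.1.2) : C6 × ℂ)) (x := (p, r))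
    (continuousAt_pr h) h2

theorem diffAux {p : C6 × ℂ} {r : ℝ} (h : ‖p.1‖ * ‖(r : ℂ) * p.2‖ < 1) :
    DifferentiableAt ℂ (fun q : C6 × ℂ => pr q.1 (r * q.2)) p := by
  have h2 : DifferentiableAt ℂ (fun q : C6 × ℂ => ((q.1, (r : ℂ) * q.2) : C6 × ℂ)) p := by
    fun_prop
  exact DifferentiableAt.comp (g := fun q : C6 × ℂ => pr q.1 q.2)
    (f := fun q : C6 × ℂ => ((q.1, (r : ℂ) * q.2) : C6 × ℂ)) p (differentiableAt_pr h) h2

/-- **`Ki` is analytic** -/
theorem analyticOn_Ki (k : ℕ) (R : ℝ) :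
    AnalyticOnNhd ℂ (fun p : C6 × ℂ => Ki k p.1 p.2) (UK R) := by
  have h1 : AnalyticOnNhd ℂ (fun p : C6 × ℂ => ∫ r in (0 : ℝ)..1, (r : ℂ) ^ (1 - k) /
      pr p.1 (r * p.2)) (UK R) := by
    refine H604.analyticOnNhd_intervalIntegral (isOpen_UK R) zero_le_one ?_ ?_
    · rintro ⟨p, r⟩ ⟨hp, hr⟩
      have hc : ContinuousAt (fun q : (C6 × ℂ) × ℝ => pr q.1.1 (q.2 * q.1.2)) (p, r) :=
        contAux (UK_lt hp hr)
      have hn : ContinuousAt (fun q : (C6 × ℂ) × ℝ => (q.2 : ℂ) ^ (1 - k)) (p, r) :=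
        ((continuous_ofReal.comp continuous_snd).pow _).continuousAt
      exact (hn.div hc (pr_ne_zero (UK_lt hp hr))).continuousWithinAt
    · intro r hr p hp
      have h2 : DifferentiableAt ℂ (fun q : C6 × ℂ => pr q.1 (r * q.2)) p := diffAux (UK_lt hp hr)
      have h4 : DifferentiableAt ℂ (fun _ : C6 × ℂ => (r : ℂ) ^ (1 - k)) p :=
        differentiableAt_const _
      have h5 : (fun q : C6 × ℂ => pr q.1 (r * q.2)) p ≠ 0 := pr_ne_zero (UK_lt hp hr)
      have h6 := h4.mul (h2.inv h5)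
      have e : (fun q : C6 × ℂ => (r : ℂ) ^ (1 - k) / pr q.1 (r * q.2)) =
          (fun _ : C6 × ℂ => (r : ℂ) ^ (1 - k)) * (fun q : C6 × ℂ => pr q.1 (r * q.2))⁻¹ := by
        funext q
        simp [div_eq_mul_inv]
      rw [e]
      exact h6.differentiableWithinAt
  intro p hp
  have h2 : AnalyticAt ℂ (fun p : C6 × ℂ => p.2 ^ (2 - k)) p :=
    ((ContinuousLinearMap.snd ℂ C6 ℂ).analyticAt _).pow _
  have h3 := (h2.mul (h1 p hp)).neg
  refine h3.congr (Eventually.of_forall fun q => ?_)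
  show -(q.2 ^ (2 - k) * ∫ r in (0 : ℝ)..1, (r : ℂ) ^ (1 - k) / pr q.1 (r * q.2)) = Ki k q.1 q.2
  rw [Ki_eq]

/-- the derivative of `Ki` -/
theorem hasDerivAt_Ki {k : ℕ} (hk : k ≤ 1) {b : C6} {w : ℂ} (h : ‖b‖ * ‖w‖ < 1) :
    HasDerivAt (Ki k b) (-hh k b w) w := by
  obtain ⟨ρ, hρ1, hρ2⟩ : ∃ ρ, ‖w‖ < ρ ∧ ∀ z ∈ Metric.ball (0 : ℂ) ρ, ‖b‖ * ‖z‖ < 1 := by
    refine ⟨‖w‖ + (1 - ‖b‖ * ‖w‖) / (‖b‖ + 1), ?_, fun z hz => ?_⟩
    · have : 0 < (1 - ‖b‖ * ‖w‖) / (‖b‖ + 1) := div_pos (by linarith) (by positivity)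
      linarith
    · rw [mem_ball_zero_iff] at hz
      rcases (norm_nonneg b).eq_or_lt with h0 | h0
      · rw [← h0, zero_mul]; exact one_pos
      · calc ‖b‖ * ‖z‖ < ‖b‖ * (‖w‖ + (1 - ‖b‖ * ‖w‖) / (‖b‖ + 1)) :=
              mul_lt_mul_of_pos_left hz h0
          _ = ‖b‖ * ‖w‖ + (1 - ‖b‖ * ‖w‖) * (‖b‖ / (‖b‖ + 1)) := by ring
          _ ≤ ‖b‖ * ‖w‖ + (1 - ‖b‖ * ‖w‖) * 1 := by
              have h7 : ‖b‖ / (‖b‖ + 1) ≤ 1 := (div_le_one (by positivity)).2 (by linarith)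
              have h8 := mul_le_mul_of_nonneg_left h7 (by linarith : 0 ≤ 1 - ‖b‖ * ‖w‖)
              linarith
          _ = 1 := by ring
  have hd : DifferentiableOn ℂ (hh k b) (Metric.ball 0 ρ) := by
    intro z hz
    refine DifferentiableAt.differentiableWithinAt ?_
    exact DifferentiableAt.div (by fun_prop) (differentiableAt_pr_right (hρ2 z hz))
      (pr_ne_zero (hρ2 z hz))
  obtain ⟨F, hF⟩ := hd.isExactOn_ball
  have hKi : ∀ z ∈ Metric.ball (0 : ℂ) ρ, Ki k b z = -(F z - F 0) := by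
    intro z hz
    rw [Ki_eq_int hk]
    congr 1
    have hseg : ∀ r ∈ uIcc (0 : ℝ) 1, (r : ℂ) * z ∈ Metric.ball (0 : ℂ) ρ := by
      intro r hr
      rw [uIcc_of_le zero_le_one] at hr
      rw [mem_ball_zero_iff] at hz ⊢
      rw [norm_mul, norm_real, Real.norm_eq_abs, abs_of_nonneg hr.1]
      exact (mul_le_of_le_one_left (norm_nonneg z) hr.2).trans_lt hz
    have hder : ∀ r ∈ uIcc (0 : ℝ) 1,
        HasDerivAt (fun r : ℝ => F ((r : ℂ) * z)) (z * hh k b (r * z)) r := by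
      intro r hr
      have h1 : HasDerivAt (fun r : ℝ => (r : ℂ) * z) z r := by
        simpa using (ofRealCLM.hasDerivAt (x := r)).mul_const z
      have h2 := (hF _ (hseg r hr)).comp_of_eq r h1 rfl
      rw [mul_comm] at h2
      exact h2
    have hint : IntervalIntegrable (fun r : ℝ => z * hh k b (r * z)) volume 0 1 := by
      refine ContinuousOn.intervalIntegrable fun r hr => ?_
      refine ContinuousAt.continuousWithinAt ?_
      refine continuousAt_const.mul ?_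
      have h3 : ContinuousAt (hh k b) ((r : ℂ) * z) :=
        (hd.differentiableAt (Metric.isOpen_ball.mem_nhds (hseg r hr))).continuousAt
      have h4 : ContinuousAt (fun r : ℝ => (r : ℂ) * z) r := by fun_prop
      exact ContinuousAt.comp (g := hh k b) h3 h4
    have := intervalIntegral.integral_eq_sub_of_hasDerivAt hder hint
    rw [this]
    simp
  have hw : w ∈ Metric.ball (0 : ℂ) ρ := by rw [mem_ball_zero_iff]; exact hρ1
  have h5 : HasDerivAt (fun z => -(F z - F 0)) (-hh k b w) w := ((hF w hw).sub_const _).neg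
  refine h5.congr_of_eventuallyEq ?_
  filter_upwards [Metric.isOpen_ball.mem_nhds hw] with z hz using hKi z hz

/-- splitting off the root at infinity -/
theorem rt_split {x β : ℂ} (hx : ∀ s ∈ Icc (0 : ℝ) 1, x - s * β ∈ Sl) (h : ‖β‖ * ‖x⁻¹‖ < 1) :
    rt (x - β) = rt x * (1 - β * x⁻¹) ^ (1 / 2 : ℂ) := by
  have hx0 : x ≠ 0 := by
    have := ne_zero_of_mem (hx 0 (by simp))
    simpa using this
  have hs : ∀ s ∈ Icc (0 : ℝ) 1, ‖(s : ℂ) * β‖ * ‖x⁻¹‖ < 1 := by
    intro s hs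
    rw [norm_mul, norm_real, Real.norm_eq_abs, abs_of_nonneg hs.1]
    have h1 : s * ‖β‖ ≤ ‖β‖ := mul_le_of_le_one_left (norm_nonneg _) hs.2
    exact (mul_le_mul_of_nonneg_right h1 (norm_nonneg _)).trans_lt h
  have h0 : EqOn (fun s : ℝ => rt (x - s * β))
      (fun s : ℝ => rt x * (1 - (s * β) * x⁻¹) ^ (1 / 2 : ℂ)) (Icc 0 1) := by
    refine isPreconnected_Icc.eq_of_sq_eq ?_ ?_ ?_ ?_ (y := 0) (by simp) (by simp)
    · intro s hs
      refine ContinuousAt.continuousWithinAt ?_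
      have h3 : ContinuousAt (fun s : ℝ => x - s * β) s := by fun_prop
      exact ContinuousAt.comp (g := rt) (analyticAt_rt (hx s hs)).continuousAt h3
    · intro s hs'
      refine ContinuousAt.continuousWithinAt ?_
      refine continuousAt_const.mul ?_
      refine ContinuousAt.cpow (by fun_prop) continuousAt_const (slit (hs s hs'))
    · intro s _
      simp only [Pi.pow_apply, mul_pow]
      rw [pow_two, pow_two, pow_two, rt_mul_self, rt_mul_self, cpow_half_mul_self]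
      field_simp
    · intro s hs'
      refine mul_ne_zero (rt_ne_zero hx0) ?_
      intro h1
      have := cpow_half_mul_self (1 - (s : ℂ) * β * x⁻¹)
      rw [h1, mul_zero] at this
      exact slitPlane_ne_zero (slit (hs s hs')) this.symm
  have := h0 (show (1 : ℝ) ∈ Icc (0 : ℝ) 1 by simp)
  simpa using this

theorem ru_split {x β : ℂ} (hx : ∀ s ∈ Icc (0 : ℝ) 1, x - s * β ∈ Su) (h : ‖β‖ * ‖x⁻¹‖ < 1) :
    ru (x - β) = ru x * (1 - β * x⁻¹) ^ (1 / 2 : ℂ) := by
  have hx0 : x ≠ 0 := by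
    have := ne_zero_of_mem_Su (hx 0 (by simp))
    simpa using this
  have hs : ∀ s ∈ Icc (0 : ℝ) 1, ‖(s : ℂ) * β‖ * ‖x⁻¹‖ < 1 := by
    intro s hs
    rw [norm_mul, norm_real, Real.norm_eq_abs, abs_of_nonneg hs.1]
    have h1 : s * ‖β‖ ≤ ‖β‖ := mul_le_of_le_one_left (norm_nonneg _) hs.2
    exact (mul_le_mul_of_nonneg_right h1 (norm_nonneg _)).trans_lt h
  have h0 : EqOn (fun s : ℝ => ru (x - s * β))
      (fun s : ℝ => ru x * (1 - (s * β) * x⁻¹) ^ (1 / 2 : ℂ)) (Icc 0 1) := by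
    refine isPreconnected_Icc.eq_of_sq_eq ?_ ?_ ?_ ?_ (y := 0) (by simp) (by simp)
    · intro s hs
      refine ContinuousAt.continuousWithinAt ?_
      have h3 : ContinuousAt (fun s : ℝ => x - s * β) s := by fun_prop
      exact ContinuousAt.comp (g := ru) (analyticAt_ru (hx s hs)).continuousAt h3
    · intro s hs'
      refine ContinuousAt.continuousWithinAt ?_
      refine continuousAt_const.mul ?_
      refine ContinuousAt.cpow (by fun_prop) continuousAt_const (slit (hs s hs'))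
    · intro s _
      simp only [Pi.pow_apply, mul_pow]
      rw [pow_two, pow_two, pow_two, ru_mul_self, ru_mul_self, cpow_half_mul_self]
      field_simp
    · intro s hs'
      refine mul_ne_zero (ru_ne_zero hx0) ?_
      intro h1
      have := cpow_half_mul_self (1 - (s : ℂ) * β * x⁻¹)
      rw [h1, mul_zero] at this
      exact slitPlane_ne_zero (slit (hs s hs')) this.symm
  have := h0 (show (1 : ℝ) ∈ Icc (0 : ℝ) 1 by simp)
  simpa using this

/-- the abstract comparison on a domain at infinity -/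
theorem eq_on (hInv : StmINV) (hHol : StmHOL) {k : ℕ} (hk : k ≤ 1) {B : Finset (Fin 6)} {b : C6}
    (hb : Function.Injective b) {R : ℝ} (hR : ‖b‖ < R) {V : Set ℂ} (hV : IsOpen V)
    (hc : IsPreconnected V) (hVR : ∀ x ∈ V, R < ‖x‖) (hOK : ∀ x ∈ V, OK B b x)
    (hsq : ∀ x ∈ V, sq B b x = x ^ 3 * pr b x⁻¹) (hre : ∀ x : ℝ, R < x → (x : ℂ) ∈ V) :
    ∀ x ∈ V, P k B b x = Ki k b x⁻¹ := by
  have hR0 : 0 < R := (norm_nonneg b).trans_lt hR
  have hlt : ∀ x ∈ V, ‖b‖ * ‖x⁻¹‖ < 1 := by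
    intro x hx
    have h1 := hVR x hx
    have h2 : 0 < ‖x‖ := hR0.trans h1
    rw [norm_inv, ← div_eq_mul_inv, div_lt_one h2]
    exact hR.trans h1
  have hx0 : ∀ x ∈ V, x ≠ 0 := by
    intro x hx h0
    have := hVR x hx
    rw [h0, norm_zero] at this
    linarith
  have hne : ∀ x ∈ V, ∀ l, b l ≠ x := by
    intro x hx l h
    have h1 := norm_le_C6 b l
    have h2 := hVR x hx
    rw [h] at h1
    linarith
  -- the derivative of `Ki`
  have hdK : ∀ x ∈ V, HasDerivAt (fun x => Ki k b x⁻¹) (x ^ k / sq B b x) x := by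
    intro x hx
    have h1 := (hasDerivAt_Ki hk (hlt x hx)).comp x (hasDerivAt_inv (hx0 x hx))
    have h2 : -hh k b x⁻¹ * -(x ^ 2)⁻¹ = x ^ k / sq B b x := by
      rw [hsq x hx, hh]
      have h3 := pr_ne_zero (hlt x hx)
      have h4 := hx0 x hx
      interval_cases k
      · simp only [Nat.sub_zero, pow_one, pow_zero]
        field_simp
      · simp only [Nat.sub_self, pow_one, pow_zero]
        field_simp
    rw [h2] at h1
    exact h1
  have hdP : ∀ x ∈ V, HasDerivAt (P k B b) (x ^ k / sq B b x) x := fun x hx =>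
    (hHol k B b x hk hb (hne x hx) (hOK x hx)).2
  -- equality at a real point
  obtain ⟨x1, hx1⟩ : ∃ x1 : ℝ, R < x1 := ⟨R + 1, by linarith⟩
  have hreal : P k B b (x1 : ℂ) = Ki k b (x1 : ℂ)⁻¹ := by
    have hadm : Adm B b (x1 : ℂ) 0 := by
      refine ⟨IsPath.const_zero, fun l _ h => ?_⟩
      exfalso
      have h1 : (b l).re ≤ ‖b l‖ := re_le_norm _
      have h2 := norm_le_C6 b l
      rw [sub_re, ofReal_re] at h
      linarith
    have hex : ∃ g, Adm B b (x1 : ℂ) g := ⟨0, hadm⟩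
    have h1 : P k B b (x1 : ℂ) = PG k B b x1 0 := by
      unfold P
      rw [dif_pos hex]
      exact (hInv k B b x1 hk hb).2 _ _ hex.choose_spec hadm
    have hint := (hInv k B b x1 hk hb).1 0 hadm
    have hig : ∀ t : ℝ, igd k B b (x1 : ℂ) 0 t = ((x1 : ℂ) + t) ^ k / sq B b ((x1 : ℂ) + t) := by
      intro t
      simp [igd, gam]
    have hmem : ∀ t ∈ Ici (0 : ℝ), (x1 : ℂ) + t ∈ V := by
      intro t ht
      have := hre (x1 + t) (by linarith [mem_Ici.1 ht])
      rwa [ofReal_add] at this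
    have hder : ∀ t ∈ Ici (0 : ℝ), HasDerivAt (fun t : ℝ => Ki k b ((x1 : ℂ) + t)⁻¹)
        (((x1 : ℂ) + t) ^ k / sq B b ((x1 : ℂ) + t)) t := by
      intro t ht
      have h2 : HasDerivAt (fun t : ℝ => (x1 : ℂ) + t) 1 t :=
        (ofRealCLM.hasDerivAt (x := t)).const_add _
      have h3 := HasDerivAt.comp_of_eq (h₂ := fun x : ℂ => Ki k b x⁻¹)
        (h := fun t : ℝ => (x1 : ℂ) + t) t (hdK _ (hmem t ht)) h2 rfl
      rw [mul_one] at h3
      exact h3
    have hlim : Tendsto (fun t : ℝ => Ki k b ((x1 : ℂ) + t)⁻¹) atTop (𝓝 0) := by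
      have h4 : ContinuousAt (Ki k b) 0 := (hasDerivAt_Ki hk (by simp)).continuousAt
      rw [ContinuousAt, Ki_zero hk] at h4
      refine h4.comp ?_
      have h5 : Tendsto (fun t : ℝ => (((x1 + t : ℝ) : ℂ))⁻¹) atTop (𝓝 0) := by
        have h6 : Tendsto (fun t : ℝ => (x1 + t)⁻¹) atTop (𝓝 0) :=
          tendsto_inv_atTop_zero.comp (tendsto_atTop_add_const_left _ _ tendsto_id)
        have h7 := (continuous_ofReal.tendsto 0).comp h6
        rw [ofReal_zero] at h7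
        refine h7.congr fun t => ?_
        simp
      refine h5.congr fun t => ?_
      rw [ofReal_add]
    have hint' : IntegrableOn (fun t : ℝ => ((x1 : ℂ) + t) ^ k / sq B b ((x1 : ℂ) + t)) (Ioi 0) :=
      hint.congr_fun (fun t _ => hig t) measurableSet_Ioi
    have h5 := integral_Ioi_of_hasDerivAt_of_tendsto' hder hint' hlim
    rw [h1, PG]
    simp only [hig]
    rw [h5]
    simp
  -- the difference is constant
  intro x hx
  have h1 : IsOpen V := hV
  have hD : ∀ y ∈ V, HasDerivAt (fun y => P k B b y - Ki k b y⁻¹) 0 y := by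
    intro y hy
    have := (hdP y hy).sub (hdK y hy)
    rw [sub_self] at this
    exact this
  have h2 := h1.is_const_of_deriv_eq_zero hc
    (fun y hy => (hD y hy).differentiableAt.differentiableWithinAt)
    (fun y hy => (hD y hy).deriv) hx (hre x1 hx1)
  simp only [hreal, sub_self] at h2
  exact sub_eq_zero.1 h2

/-- the upper domain at infinity -/
def Vu (R : ℝ) : Set ℂ := {x | R < x.im} ∪ ({x | R < x.re} ∪ {x | x.re < -R})

/-- the lower domain at infinity -/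
def Vd (R : ℝ) : Set ℂ := {x | x.im < -R} ∪ ({x | R < x.re} ∪ {x | x.re < -R})

theorem isOpen_Vu (R : ℝ) : IsOpen (Vu R) :=
  (isOpen_lt continuous_const continuous_im).union
    ((isOpen_lt continuous_const continuous_re).union (isOpen_lt continuous_re continuous_const))

theorem isOpen_Vd (R : ℝ) : IsOpen (Vd R) :=
  (isOpen_lt continuous_im continuous_const).union
    ((isOpen_lt continuous_const continuous_re).union (isOpen_lt continuous_re continuous_const))

theorem isPreconnected_Vu (R : ℝ) : IsPreconnected (Vu R) := by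
  have h1 : IsPreconnected {x : ℂ | R < x.im} := (convex_halfSpace_im_gt R).isPreconnected
  have h2 : IsPreconnected {x : ℂ | R < x.re} := (convex_halfSpace_re_gt R).isPreconnected
  have h3 : IsPreconnected {x : ℂ | x.re < -R} := (convex_halfSpace_re_lt (-R)).isPreconnected
  have h4 : IsPreconnected ({x : ℂ | R < x.im} ∪ {x | R < x.re}) :=
    h1.union (⟨R + 1, R + 1⟩ : ℂ) (by simp) (by simp) h2
  have h5 := h4.union (⟨-R - 1, R + 1⟩ : ℂ) (by left; simp) (by simp) h3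
  rw [union_assoc] at h5
  exact h5

theorem isPreconnected_Vd (R : ℝ) : IsPreconnected (Vd R) := by
  have h1 : IsPreconnected {x : ℂ | x.im < -R} := (convex_halfSpace_im_lt (-R)).isPreconnected
  have h2 : IsPreconnected {x : ℂ | R < x.re} := (convex_halfSpace_re_gt R).isPreconnected
  have h3 : IsPreconnected {x : ℂ | x.re < -R} := (convex_halfSpace_re_lt (-R)).isPreconnected
  have h4 : IsPreconnected ({x : ℂ | x.im < -R} ∪ {x | R < x.re}) :=
    h1.union (⟨R + 1, -R - 1⟩ : ℂ) (by simp) (by simp) h2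
  have h5 := h4.union (⟨-R - 1, -R - 1⟩ : ℂ) (by left; simp) (by simp) h3
  rw [union_assoc] at h5
  exact h5

theorem Vu_norm {R : ℝ} {x : ℂ} (hx : x ∈ Vu R) : R < ‖x‖ := by
  rcases hx with h | h | h
  · exact lt_of_lt_of_le h ((le_abs_self _).trans (abs_im_le_norm x))
  · exact lt_of_lt_of_le h ((le_abs_self _).trans (abs_re_le_norm x))
  · have h1 : x.re < -R := h
    have h2 := (neg_le_abs x.re).trans (abs_re_le_norm x)
    linarith

theorem Vd_norm {R : ℝ} {x : ℂ} (hx : x ∈ Vd R) : R < ‖x‖ := by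
  rcases hx with h | h | h
  · have h1 : x.im < -R := h
    have h2 := (neg_le_abs x.im).trans (abs_im_le_norm x)
    linarith
  · exact lt_of_lt_of_le h ((le_abs_self _).trans (abs_re_le_norm x))
  · have h1 : x.re < -R := h
    have h2 := (neg_le_abs x.re).trans (abs_re_le_norm x)
    linarith

theorem Vu_Sl {R : ℝ} {x β : ℂ} (hx : x ∈ Vu R) (hβ : ‖β‖ < R) {s : ℝ} (hs : s ∈ Icc (0 : ℝ) 1) :
    x - s * β ∈ Sl := by
  have h1 : ‖(s : ℂ) * β‖ < R := by
    rw [norm_mul, norm_real, Real.norm_eq_abs, abs_of_nonneg hs.1]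
    exact (mul_le_of_le_one_left (norm_nonneg _) hs.2).trans_lt hβ
  have h2 := (abs_re_le_norm ((s : ℂ) * β)).trans_lt h1
  have h3 := (abs_im_le_norm ((s : ℂ) * β)).trans_lt h1
  rw [abs_lt] at h2 h3
  rcases hx with h | h | h
  · left
    rw [sub_im]
    have : R < x.im := h
    linarith
  · right
    rw [sub_re]
    have : R < x.re := h
    intro h4; linarith
  · right
    rw [sub_re]
    have : x.re < -R := h
    intro h4; linarith

theorem Vd_Su {R : ℝ} {x β : ℂ} (hx : x ∈ Vd R) (hβ : ‖β‖ < R) {s : ℝ} (hs : s ∈ Icc (0 : ℝ) 1) :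
    x - s * β ∈ Su := by
  have h1 : ‖(s : ℂ) * β‖ < R := by
    rw [norm_mul, norm_real, Real.norm_eq_abs, abs_of_nonneg hs.1]
    exact (mul_le_of_le_one_left (norm_nonneg _) hs.2).trans_lt hβ
  have h2 := (abs_re_le_norm ((s : ℂ) * β)).trans_lt h1
  have h3 := (abs_im_le_norm ((s : ℂ) * β)).trans_lt h1
  rw [abs_lt] at h2 h3
  rcases hx with h | h | h
  · left
    rw [sub_im]
    have : x.im < -R := h
    linarith
  · right
    rw [sub_re]
    have : R < x.re := h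
    intro h4; linarith
  · right
    rw [sub_re]
    have : x.re < -R := h
    intro h4; linarith

theorem lt_of_norm {b : C6} {R : ℝ} (hR : ‖b‖ < R) {x : ℂ} (hx : R < ‖x‖) (l : Fin 6) :
    ‖b l‖ * ‖x⁻¹‖ < 1 := by
  have h2 : 0 < ‖x‖ := ((norm_nonneg b).trans_lt hR).trans hx
  rw [norm_inv, ← div_eq_mul_inv, div_lt_one h2]
  exact ((norm_le_C6 b l).trans_lt hR).trans hx

theorem sq_empty {b : C6} {R : ℝ} (hR : ‖b‖ < R) {x : ℂ} (hx : x ∈ Vu R) :
    sq ∅ b x = x ^ 3 * pr b x⁻¹ := by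
  have h1 : ∀ l, br ∅ l (x - b l) = rt x * (1 - b l * x⁻¹) ^ (1 / 2 : ℂ) := by
    intro l
    simp only [br, Finset.notMem_empty, if_false]
    exact rt_split (fun s hs => Vu_Sl hx ((norm_le_C6 b l).trans_lt hR) hs)
      (lt_of_norm hR (Vu_norm hx) l)
  rw [H857.sq, Finset.prod_congr rfl fun l _ => h1 l, Finset.prod_mul_distrib, pr]
  congr 1
  simp only [Finset.prod_const, Finset.card_univ, Fintype.card_fin]
  calc rt x ^ 6 = (rt x * rt x) ^ 3 := by ring
    _ = x ^ 3 := by rw [rt_mul_self]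

theorem sq_univ {b : C6} {R : ℝ} (hR : ‖b‖ < R) {x : ℂ} (hx : x ∈ Vd R) :
    sq Finset.univ b x = x ^ 3 * pr b x⁻¹ := by
  have h1 : ∀ l, br Finset.univ l (x - b l) = ru x * (1 - b l * x⁻¹) ^ (1 / 2 : ℂ) := by
    intro l
    simp only [br, Finset.mem_univ, if_true]
    exact ru_split (fun s hs => Vd_Su hx ((norm_le_C6 b l).trans_lt hR) hs)
      (lt_of_norm hR (Vd_norm hx) l)
  rw [H857.sq, Finset.prod_congr rfl fun l _ => h1 l, Finset.prod_mul_distrib, pr]
  congr 1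
  simp only [Finset.prod_const, Finset.card_univ, Fintype.card_fin]
  calc ru x ^ 6 = (ru x * ru x) ^ 3 := by ring
    _ = x ^ 3 := by rw [ru_mul_self]

theorem ok_empty {b : C6} {R : ℝ} (hR : ‖b‖ < R) {x : ℂ} (hx : x ∈ Vu R) : OK ∅ b x := by
  refine ⟨fun l hl => absurd hl (Finset.notMem_empty l), fun l _ e =>
    ⟨fun h => absurd h (Finset.notMem_empty l), fun _ => ?_⟩⟩
  have h1 := (abs_re_le_norm (b l)).trans_lt ((norm_le_C6 b l).trans_lt hR)
  have h2 := (abs_im_le_norm (b l)).trans_lt ((norm_le_C6 b l).trans_lt hR)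
  rw [abs_lt] at h1 h2
  rcases hx with h | h | h
  · have : R < x.im := h
    linarith
  · have : R < x.re := h
    linarith
  · have : x.re < -R := h
    linarith

theorem ok_univ {b : C6} {R : ℝ} (hR : ‖b‖ < R) {x : ℂ} (hx : x ∈ Vd R) :
    OK Finset.univ b x := by
  refine ⟨fun l _ m hm => absurd (Finset.mem_univ m) hm, fun l _ e =>
    ⟨fun _ => ?_, fun h => absurd (Finset.mem_univ l) h⟩⟩
  have h1 := (abs_re_le_norm (b l)).trans_lt ((norm_le_C6 b l).trans_lt hR)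
  have h2 := (abs_im_le_norm (b l)).trans_lt ((norm_le_C6 b l).trans_lt hR)
  rw [abs_lt] at h1 h2
  rcases hx with h | h | h
  · have : x.im < -R := h
    linarith
  · have : R < x.re := h
    linarith
  · have : x.re < -R := h
    linarith

/-- **`P_∅` on the upper domain at infinity** -/
theorem P_empty_eq (hInv : StmINV) (hHol : StmHOL) {k : ℕ} (hk : k ≤ 1) {b : C6}
    (hb : Function.Injective b) {R : ℝ} (hR : ‖b‖ < R) {x : ℂ} (hx : x ∈ Vu R) :
    P k ∅ b x = Ki k b x⁻¹ :=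
  eq_on hInv hHol hk hb hR (isOpen_Vu R) (isPreconnected_Vu R) (fun _ => Vu_norm)
    (fun _ => ok_empty hR) (fun _ => sq_empty hR)
    (fun x hx => Or.inr (Or.inl (by simpa using hx))) x hx

/-- **`P_univ` on the lower domain at infinity** -/
theorem P_univ_eq (hInv : StmINV) (hHol : StmHOL) {k : ℕ} (hk : k ≤ 1) {b : C6}
    (hb : Function.Injective b) {R : ℝ} (hR : ‖b‖ < R) {x : ℂ} (hx : x ∈ Vd R) :
    P k Finset.univ b x = Ki k b x⁻¹ :=
  eq_on hInv hHol hk hb hR (isOpen_Vd R) (isPreconnected_Vd R) (fun _ => Vd_norm)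
    (fun _ => ok_univ hR) (fun _ => sq_univ hR)
    (fun x hx => Or.inr (Or.inl (by simpa using hx))) x hx

theorem mem_Vu {R : ℝ} {x : ℂ} (h : 2 * R < ‖x‖) (h0 : 0 ≤ x.im) : x ∈ Vu R := by
  by_contra hx
  simp only [Vu, mem_union, mem_ofPred_eq, not_or, not_lt] at hx
  obtain ⟨h1, h2, h3⟩ := hx
  have h4 := norm_le_abs_re_add_abs_im x
  rw [abs_of_nonneg h0] at h4
  have h5 : |x.re| ≤ R := abs_le.2 ⟨by linarith, h2⟩
  linarith

theorem mem_Vd {R : ℝ} {x : ℂ} (h : 2 * R < ‖x‖) (h0 : x.im ≤ 0) : x ∈ Vd R := by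
  by_contra hx
  simp only [Vd, mem_union, mem_ofPred_eq, not_or, not_lt] at hx
  obtain ⟨h1, h2, h3⟩ := hx
  have h4 := norm_le_abs_re_add_abs_im x
  rw [abs_of_nonpos h0] at h4
  have h5 : |x.re| ≤ R := abs_le.2 ⟨by linarith, h2⟩
  linarith

theorem eventually_injective {b₀ : C6} (h : Function.Injective b₀) :
    ∀ᶠ b : C6 in 𝓝 b₀, Function.Injective b := by
  have h1 : ∀ i j : Fin 6, ∀ᶠ b : C6 in 𝓝 b₀, i ≠ j → b i ≠ b j := by
    intro i j
    by_cases hij : i = j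
    · exact Eventually.of_forall fun b h => absurd hij h
    · have h2 : ContinuousAt (fun b : C6 => b i - b j) b₀ := by fun_prop
      have h3 : b₀ i - b₀ j ≠ 0 := sub_ne_zero.2 fun e => hij (h e)
      filter_upwards [h2.eventually_ne h3] with b hb _ e
      exact hb (sub_eq_zero.2 e)
  have h2 : ∀ᶠ b : C6 in 𝓝 b₀, ∀ i j : Fin 6, i ≠ j → b i ≠ b j :=
    eventually_all.2 fun i => eventually_all.2 fun j => h1 i j
  filter_upwards [h2] with b hb i j e
  by_contra hij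
  exact hb i j hij e

/-- **row GP-INF** -/
theorem stmINF (hInv : StmINV) (hHol : StmHOL) : StmINF := by
  intro k b₀ hk hb₀
  set R : ℝ := ‖b₀‖ + 1 with hRdef
  have hR0 : 0 < R := by positivity
  refine ⟨analyticOn_Ki k R (b₀, 0) ⟨by simp [hRdef], by simp⟩, ?_⟩
  have h1 : ∀ᶠ p : C6 × ℂ in 𝓝 (b₀, 0), ‖p.1‖ < R := by
    have : ContinuousAt (fun p : C6 × ℂ => ‖p.1‖) (b₀, 0) := continuous_fst.norm.continuousAt
    exact this.eventually_lt_const (by simp [hRdef])
  have h2 : ∀ᶠ p : C6 × ℂ in 𝓝 (b₀, 0), ‖p.2‖ < 1 / (2 * R) := by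
    have : ContinuousAt (fun p : C6 × ℂ => ‖p.2‖) (b₀, 0) := continuous_snd.norm.continuousAt
    exact this.eventually_lt_const (by simp only [norm_zero]; positivity)
  have h3 : ∀ᶠ p : C6 × ℂ in 𝓝 (b₀, 0), Function.Injective p.1 :=
    (continuous_fst.tendsto ((b₀, 0) : C6 × ℂ)).eventually (eventually_injective hb₀)
  filter_upwards [h1, h2, h3] with p hp1 hp2 hp3 hp0
  have hn : 2 * R < ‖p.2⁻¹‖ := by
    rw [norm_inv, lt_inv_comm₀ (by positivity) (norm_pos_iff.2 hp0)]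
    rwa [one_div] at hp2
  have him : (p.2⁻¹).im = -p.2.im / normSq p.2 := inv_im _
  have hpos : 0 < normSq p.2 := normSq_pos.2 hp0
  refine ⟨fun h => ?_, fun h => ?_⟩
  · have h4 : 0 ≤ (p.2⁻¹).im := by
      rw [him]; exact div_nonneg (by linarith) hpos.le
    have h5 := P_empty_eq hInv hHol hk hp3 hp1 (mem_Vu hn h4)
    rwa [inv_inv] at h5
  · have h4 : (p.2⁻¹).im ≤ 0 := by
      rw [him]; exact div_nonpos_of_nonpos_of_nonneg (by linarith) hpos.le
    have h5 := P_univ_eq hInv hHol hk hp3 hp1 (mem_Vd hn h4)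
    rwa [inv_inv] at h5

end

end Vale.Agent.P273.H233.Inf
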