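import Vale.Agent.P273.H545.CoreTheta
import Vale.Agent.P273.H803.AsyL

/-!
# P273, crew ASY0: limits of the legs of the marks on the cores

`bs`, `pB`: the base map `(y + 2 log 16, α)` of the log chart and its derivative.  If the legs of a
mark at the dilated points are `s * UKD` (545) with bounded data and a core coordinate which only
depends on the core marks, then they have the limits `limC` and `lim0` of `AsyL`.
-/

noncomputable section

namespace Vale.Agent.P273.H233.LimC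

open Set Filter H681 H95 H732 H562
open scoped Topology

/-! ### the base -/

/-- the offset of the neck lengths: `|X| = 1 / 16` at the end of the neck -/
def c16 : ℝ := 2 * Real.log 16

theorem c16_nonneg : 0 ≤ c16 := by
  unfold c16
  have := Real.log_nonneg (by norm_num : (1 : ℝ) ≤ 16)
  linarith

/-- neck lengths with offset, at the dilated points -/
def yN (y : Fin 3 → ℝ) (N : ℝ) : Fin 3 → ℝ := fun k => N * y k + c16

theorem mn_le (y : Fin 3 → ℝ) (k : Fin 3) : mn y ≤ y k := by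
  unfold mn
  fin_cases k
  · exact min_le_left _ _
  · exact (min_le_right _ _).trans (min_le_left _ _)
  · exact (min_le_right _ _).trans (min_le_right _ _)

theorem exists_mn (y : Fin 3 → ℝ) : ∃ l, y l ≤ mn y := by
  unfold mn
  rcases min_choice (y 0) (min (y 1) (y 2)) with h | h
  · exact ⟨0, h.ge⟩
  · rcases min_choice (y 1) (y 2) with h' | h'
    · exact ⟨1, by rw [h, h']⟩
    · exact ⟨2, by rw [h, h']⟩

theorem tendsto_yN {y : Fin 3 → ℝ} (hy : ∀ k, 0 < y k) (k : Fin 3) :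
    Tendsto (fun N : ℝ => yN y N k) atTop atTop :=
  tendsto_atTop_add_const_right _ _ (tendsto_id.atTop_mul_const (hy k))

theorem tendsto_mn {y : Fin 3 → ℝ} (hy : ∀ k, 0 < y k) :
    Tendsto (fun N : ℝ => mn (yN y N)) atTop atTop := by
  rw [tendsto_atTop]
  intro b
  filter_upwards [(tendsto_yN hy 0).eventually_ge_atTop b, (tendsto_yN hy 1).eventually_ge_atTop b,
    (tendsto_yN hy 2).eventually_ge_atTop b] with N h0 h1 h2
  exact le_min h0 (le_min h1 h2)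

theorem eventually_big (D : H722.KapData (Fin 3)) {y : Fin 3 → ℝ} (hy : ∀ k, 0 < y k)
    (α : Fin 3 → ℝ) : ∀ᶠ N : ℝ in atTop, D.Big (mn (yN y N)) (yN y N, α) := by
  have h1 := tendsto_mn hy
  have h2 : Tendsto (fun N : ℝ => Real.exp (-mn (yN y N))) atTop (𝓝 0) :=
    Real.tendsto_exp_neg_atTop_nhds_zero.comp h1
  filter_upwards [h1.eventually_gt_atTop (8 * D.κ), h2.eventually_lt_const D.ρ_pos] with N a1 a2
  exact ⟨mn_le _, exists_mn _, a1, (H722.KapData.norm_ep_le (mn_le (yN y N))).trans_lt a2⟩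

theorem tendsto_yN_div {y : Fin 3 → ℝ} (k : Fin 3) :
    Tendsto (fun N : ℝ => y k + c16 / N) atTop (𝓝 (y k)) := by
  have h1 : Tendsto (fun N : ℝ => c16 / N) atTop (𝓝 0) := tendsto_const_nhds.div_atTop tendsto_id
  simpa using h1.const_add (y k)

theorem tendsto_rr {y : Fin 3 → ℝ} (hy : ∀ k, 0 < y k) (l : Fin 3) :
    Tendsto (fun N : ℝ => H722.rr (yN y N) l) atTop (𝓝 (H722.rr y l)) := by
  have h1 : ∀ k, Tendsto (fun N : ℝ => (y k + c16 / N)⁻¹) atTop (𝓝 (y k)⁻¹) := fun k =>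
    (tendsto_yN_div k).inv₀ (hy k).ne'
  have h2 : Tendsto (fun N : ℝ => ∑ k, (y k + c16 / N)⁻¹) atTop (𝓝 (∑ k, (y k)⁻¹)) :=
    tendsto_finsetSum _ fun k _ => h1 k
  have h3 : (∑ k, (y k)⁻¹) ≠ 0 :=
    (Finset.sum_pos (fun k _ => inv_pos.2 (hy k)) Finset.univ_nonempty).ne'
  have h4 := (h1 l).div h2 h3
  refine h4.congr' ?_
  filter_upwards [eventually_gt_atTop 0] with N hN
  have h5 : yN y N = fun k => N * (y k + c16 / N) := by
    funext k
    unfold yN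
    field_simp
  rw [h5, H722.rr_smul _ hN.ne']
  rfl

/-- `N / y_N → 1 / y` -/
theorem tendsto_div_yN {y : Fin 3 → ℝ} (hy : ∀ k, 0 < y k) (l : Fin 3) :
    Tendsto (fun N : ℝ => N / yN y N l) atTop (𝓝 (1 / y l)) := by
  have h1 : Tendsto (fun N : ℝ => 1 / (y l + c16 / N)) atTop (𝓝 (1 / y l)) :=
    tendsto_const_nhds.div (tendsto_yN_div l) (hy l).ne'
  refine h1.congr' ?_
  filter_upwards [eventually_gt_atTop 0] with N hN
  unfold yN
  have h2 : 0 < y l + c16 / N := by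
    have := hy l
    have := div_nonneg c16_nonneg hN.le
    linarith
  have h3 : N * y l + c16 = N * (y l + c16 / N) := by field_simp
  rw [h3]
  field_simp

/-! ### the limits of 722's functions -/

/-- the constants `κ` of `Asy` from the data of 722 -/
def Kap0 (D : H722.KapData (Fin 3)) (κ : Fin 3 → Fin 3 → ℝ) : Prop :=
  ∀ (β : Fin 3 → ℝ) (k : Fin 3), ∑ l, κ k l * β l = -(D.kap 0 (H722.ib β) k).re

theorem g0_eq {D : H722.KapData (Fin 3)} {κ : Fin 3 → Fin 3 → ℝ} (hκ : Kap0 D κ)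
    (ξ : Fin 6 → ℝ) (y α : Fin 3 → ℝ) : D.g0 (xe ξ) (bt ξ) (y, α) = gg κ ξ α := by
  funext k
  unfold H722.KapData.g0 gg
  rw [hκ (bt ξ) k, H722.RG_apply]
  ring

theorem lam_eq {κ : Fin 3 → Fin 3 → ℝ} (ξ : Fin 6 → ℝ) (y α : Fin 3 → ℝ) :
    lam κ ξ y α = ∑ k, H722.rr y k * gg κ ξ α k := by
  unfold lam H722.rr
  rw [Finset.sum_div]
  refine Finset.sum_congr rfl fun k _ => ?_
  simp only [one_div]
  ring

theorem lamA_eq (ξ : Fin 6 → ℝ) (y : Fin 3 → ℝ) (l : Fin 3) :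
    lamA ξ y l = H722.rr y l * (bt ξ l / (2 * Real.pi)) := by
  unfold lamA H722.rr
  simp only [one_div]
  ring

theorem lamY_eq {κ : Fin 3 → Fin 3 → ℝ} (ξ : Fin 6 → ℝ) (y α : Fin 3 → ℝ) (l : Fin 3) :
    lamY κ ξ y α l = H722.rr y l * (lam κ ξ y α - gg κ ξ α l) * (1 / y l) := by
  unfold lamY H722.rr
  simp only [one_div]
  ring

/-- the limit of the slopes -/
theorem tendsto_wf {D : H722.KapData (Fin 3)} {κ : Fin 3 → Fin 3 → ℝ} (hκ : Kap0 D κ)
    (ξ : Fin 6 → ℝ) {y : Fin 3 → ℝ} (hy : ∀ k, 0 < y k) (α : Fin 3 → ℝ) (l : Fin 3) :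
    Tendsto (fun N : ℝ => D.wf (xe ξ) (bt ξ) (yN y N, α) l) atTop
      (𝓝 (lam κ ξ y α - gg κ ξ α l)) := by
  have h1 : Tendsto (fun N : ℝ => ∑ k, H722.rr (yN y N) k * gg κ ξ α k - gg κ ξ α l) atTop
      (𝓝 (lam κ ξ y α - gg κ ξ α l)) := by
    rw [lam_eq]
    exact (tendsto_finsetSum _ fun k _ => (tendsto_rr hy k).mul_const _).sub_const _
  have h2 : Tendsto (fun N : ℝ => D.A0 ‖α‖ * H722.KapData.sz (xe ξ) (bt ξ) / mn (yN y N)) atTop (𝓝 0) :=
    tendsto_const_nhds.div_atTop (tendsto_mn hy)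
  have h3 : Tendsto (fun N : ℝ => D.wf (xe ξ) (bt ξ) (yN y N, α) l -
      (∑ k, H722.rr (yN y N) k * gg κ ξ α k - gg κ ξ α l)) atTop (𝓝 0) := by
    refine squeeze_zero_norm' ?_ h2
    filter_upwards [eventually_big D hy α] with N hN
    have h4 := (H722.KapData.bounds_v hN (fun k => norm_le_pi_norm α k) (xe ξ) (bt ξ)).2.2.2.2 l
    rw [g0_eq hκ] at h4
    rw [Real.norm_eq_abs]
    exact h4
  have h5 := h3.add h1
  rw [zero_add] at h5
  exact h5.congr fun N => by ring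

/-! ### the legs -/

section Legs

variable (R : H95.Region) (m : ∀ k, Fin (R.n k + 1))

/-- the base map -/
def bs (p : Co R m) : H722.Pa (Fin 3) := (fun k => p.2.2.1 k + c16, p.2.2.2.1)

/-- its derivative -/
def pB : Co R m →L[ℝ] H722.Pa (Fin 3) :=
  (ContinuousLinearMap.prod
    ((ContinuousLinearMap.fst ℝ (Fin 3 → ℝ) ((Fin 3 → ℝ) × (R.Cm → ℂ))).comp
      ((ContinuousLinearMap.snd ℝ ((W R m).Fr → ℝ) ((Fin 3 → ℝ) × (Fin 3 → ℝ) × (R.Cm → ℂ))).comp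
        (ContinuousLinearMap.snd ℝ ((W R m).Fr → ℝ)
          (((W R m).Fr → ℝ) × (Fin 3 → ℝ) × (Fin 3 → ℝ) × (R.Cm → ℂ)))))
    ((ContinuousLinearMap.fst ℝ (Fin 3 → ℝ) (R.Cm → ℂ)).comp
      ((ContinuousLinearMap.snd ℝ (Fin 3 → ℝ) ((Fin 3 → ℝ) × (R.Cm → ℂ))).comp
        ((ContinuousLinearMap.snd ℝ ((W R m).Fr → ℝ)
          ((Fin 3 → ℝ) × (Fin 3 → ℝ) × (R.Cm → ℂ))).comp
          (ContinuousLinearMap.snd ℝ ((W R m).Fr → ℝ)
            (((W R m).Fr → ℝ) × (Fin 3 → ℝ) × (Fin 3 → ℝ) × (R.Cm → ℂ)))))))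

@[simp] theorem pB_apply (v : Co R m) : pB R m v = (v.2.2.1, v.2.2.2.1) := rfl

theorem hasFDerivAt_bs (p : Co R m) : HasFDerivAt (bs R m) (pB R m) p := by
  have h : bs R m = fun p => pB R m p + ((fun _ => c16, 0) : H722.Pa (Fin 3)) := by
    funext p
    refine Prod.ext (funext fun k => rfl) (funext fun k => ?_)
    simp [bs]
  rw [h]
  exact (pB R m).hasFDerivAt.add_const _

theorem bs_dpt (B : Set (W R m).Fr) (N : ℝ) (p : Co R m) :
    bs R m ((W R m).dpt B N p) = (yN p.2.2.1 N, p.2.2.2.1) := rfl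

variable {R m} {D : H722.KapData (Fin 3)} {κ : Fin 3 → Fin 3 → ℝ} {B : Set (W R m).Fr}
  {p : Co R m} {A s : ℝ} {ξ : Fin 6 → ℝ} {lg : Co R m → Co R m →L[ℝ] ℝ}

/-- the legs of a mark on a core at the dilated points -/
def CoreLeg (D : H722.KapData (Fin 3)) (B : Set (W R m).Fr) (p : Co R m) (A s : ℝ)
    (ξ : Fin 6 → ℝ) (lg : Co R m → Co R m →L[ℝ] ℝ) : Prop :=
  ∀ᶠ N : ℝ in atTop, ∃ (K0 : (Fin 3 → ℂ) →L[ℂ] ℂ)
    (K' : (Fin 3 → ℂ) × ℂ →L[ℝ] ((Fin 3 → ℂ) →L[ℂ] ℂ)) (x' : Co R m →L[ℝ] ℂ),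
    ‖K0‖ ≤ A ∧ ‖K'‖ ≤ A ∧ (∀ v : Co R m, v.2.2.2.2 = 0 → x' v = 0) ∧
    ∀ v, lg ((W R m).dpt B N p) v =
      s * H545.UKD D K0 K' (xe ξ) (bt ξ) (bs R m ((W R m).dpt B N p)) (pB R m) x' v

/-- directions that move neither the base nor the core marks -/
theorem leg_zero (h : CoreLeg D B p A s ξ lg) (v : ℝ → Co R m) (c : ℝ → ℝ)
    (hv : ∀ N, (v N).2.2.1 = 0 ∧ (v N).2.2.2.1 = 0 ∧ (v N).2.2.2.2 = 0) :
    Tendsto (fun N : ℝ => c N * lg ((W R m).dpt B N p) (v N)) atTop (𝓝 0) := by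
  refine tendsto_const_nhds.congr' ?_
  filter_upwards [h] with N hN
  obtain ⟨K0, K', x', -, -, hx, hl⟩ := hN
  obtain ⟨h1, h2, h3⟩ := hv N
  rw [hl, H545.UKD_zero (by rw [pB_apply, h1, h2]; rfl) (hx _ h3)]
  simp

/-- the leg in the direction `α l` -/
theorem leg_al (h : CoreLeg D B p A s ξ lg) (hy : ∀ k, 0 < p.2.2.1 k) (l : Fin 3) :
    Tendsto (fun N : ℝ => lg ((W R m).dpt B N p) ((W R m).vec (.al l))) atTop
      (𝓝 (s * lamA ξ p.2.2.1 l)) := by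
  have h1 : Tendsto (fun N : ℝ => s * (H722.rr (yN p.2.2.1 N) l * (bt ξ l / (2 * Real.pi)))) atTop
      (𝓝 (s * lamA ξ p.2.2.1 l)) := by
    rw [lamA_eq]
    exact ((tendsto_rr hy l).mul_const _).const_mul s
  have h2 : Tendsto (fun N : ℝ => |s| * ((1 + 3 * A) * (D.A0 ‖p.2.2.2.1‖ *
      H722.KapData.sz (xe ξ) (bt ξ)) / mn (yN p.2.2.1 N))) atTop (𝓝 0) := by
    have h3 : Tendsto (fun N : ℝ => (1 + 3 * A) * (D.A0 ‖p.2.2.2.1‖ *
        H722.KapData.sz (xe ξ) (bt ξ)) / mn (yN p.2.2.1 N)) atTop (𝓝 0) :=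
      tendsto_const_nhds.div_atTop (tendsto_mn hy)
    simpa using h3.const_mul |s|
  have h3 : Tendsto (fun N : ℝ => lg ((W R m).dpt B N p) ((W R m).vec (.al l)) -
      s * (H722.rr (yN p.2.2.1 N) l * (bt ξ l / (2 * Real.pi)))) atTop (𝓝 0) := by
    refine squeeze_zero_norm' ?_ h2
    filter_upwards [h, eventually_big D hy p.2.2.2.1] with N hN hb
    obtain ⟨K0, K', x', hA0, hA1, hx, hl⟩ := hN
    have h4 := (H545.UK_a (D := D) (K0 := K0) (K' := K') (B := pB R m) (x' := x') hb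
      (fun k => norm_le_pi_norm p.2.2.2.1 k) hA0 hA1 (xe ξ) (bt ξ) (v := (W R m).vec (.al l))
      (l := l) rfl (hx _ rfl)).2
    rw [hl, ← mul_sub, Real.norm_eq_abs, abs_mul]
    exact mul_le_mul_of_nonneg_left h4 (abs_nonneg s)
  have h5 := h3.add h1
  rw [zero_add] at h5
  exact h5.congr fun N => by ring

/-- `N / y_N ^ 2 → 0` -/
theorem tendsto_div_sq {y : Fin 3 → ℝ} (hy : ∀ k, 0 < y k) (l : Fin 3) :
    Tendsto (fun N : ℝ => N / yN y N l ^ 2) atTop (𝓝 0) := by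
  have h1 : Tendsto (fun N : ℝ => (yN y N l)⁻¹) atTop (𝓝 0) :=
    tendsto_inv_atTop_zero.comp (tendsto_yN hy l)
  have h2 := (tendsto_div_yN hy l).mul h1
  rw [mul_zero] at h2
  refine h2.congr fun N => ?_
  rw [div_mul_eq_mul_div, ← div_eq_mul_inv, div_div, pow_two]

/-- the leg at the Euler vectors -/
theorem leg_eul (hκ : Kap0 D κ) (h : CoreLeg D B p A s ξ lg) (hy : ∀ k, 0 < p.2.2.1 k)
    (l : Fin 3) (v : ℝ → Co R m)
    (hv : ∀ N, (v N).2.2.1 = Pi.single l 1 ∧ (v N).2.2.2.1 = 0 ∧ (v N).2.2.2.2 = 0) :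
    Tendsto (fun N : ℝ => N * lg ((W R m).dpt B N p) (v N)) atTop
      (𝓝 (s * lamY κ ξ p.2.2.1 p.2.2.2.1 l)) := by
  have h1 : Tendsto (fun N : ℝ => s * (H722.rr (yN p.2.2.1 N) l *
      D.wf (xe ξ) (bt ξ) (yN p.2.2.1 N, p.2.2.2.1) l * (N / yN p.2.2.1 N l))) atTop
      (𝓝 (s * lamY κ ξ p.2.2.1 p.2.2.2.1 l)) := by
    rw [lamY_eq]
    exact (((tendsto_rr hy l).mul (tendsto_wf hκ ξ hy p.2.2.2.1 l)).mul
      (tendsto_div_yN hy l)).const_mul s
  have h2 : Tendsto (fun N : ℝ => |s| * ((1 + 5 * A) * (D.A0 ‖p.2.2.2.1‖ *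
      H722.KapData.sz (xe ξ) (bt ξ)) * (N / yN p.2.2.1 N l ^ 2))) atTop (𝓝 0) := by
    simpa using ((tendsto_div_sq hy l).const_mul ((1 + 5 * A) * (D.A0 ‖p.2.2.2.1‖ *
      H722.KapData.sz (xe ξ) (bt ξ)))).const_mul |s|
  have h3 : Tendsto (fun N : ℝ => N * lg ((W R m).dpt B N p) (v N) -
      s * (H722.rr (yN p.2.2.1 N) l *
      D.wf (xe ξ) (bt ξ) (yN p.2.2.1 N, p.2.2.2.1) l * (N / yN p.2.2.1 N l))) atTop (𝓝 0) := by
    refine squeeze_zero_norm' ?_ h2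
    filter_upwards [h, eventually_big D hy p.2.2.2.1, eventually_ge_atTop 0] with N hN hb hN0
    obtain ⟨K0, K', x', hA0, hA1, hx, hl⟩ := hN
    obtain ⟨v1, v2, v3⟩ := hv N
    have hB : pB R m (v N) = (1 : ℝ) • H722.ey l := by
      rw [pB_apply, v1, v2, one_smul]; rfl
    have h4 := (H545.UK_y (D := D) (K0 := K0) (K' := K') (B := pB R m) (x' := x') hb
      (fun k => norm_le_pi_norm p.2.2.2.1 k) hA0 hA1 (xe ξ) (bt ξ) (v := v N)
      (l := l) (t := 1) hB (hx _ v3)).2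
    rw [abs_one, one_mul] at h4
    have e : N * lg ((W R m).dpt B N p) (v N) - s * (H722.rr (yN p.2.2.1 N) l *
        D.wf (xe ξ) (bt ξ) (yN p.2.2.1 N, p.2.2.2.1) l * (N / yN p.2.2.1 N l)) =
        s * (N * (H545.UKD D K0 K' (xe ξ) (bt ξ) (yN p.2.2.1 N, p.2.2.2.1) (pB R m) x' (v N) -
          H722.rr (yN p.2.2.1 N) l * D.wf (xe ξ) (bt ξ) (yN p.2.2.1 N, p.2.2.2.1) l /
            yN p.2.2.1 N l)) := by
      rw [hl, bs_dpt]
      ring
    rw [e, Real.norm_eq_abs, abs_mul, abs_mul, abs_of_nonneg hN0]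
    refine mul_le_mul_of_nonneg_left ?_ (abs_nonneg s)
    calc N * |_| ≤ N * ((1 + 5 * A) * (D.A0 ‖p.2.2.2.1‖ * H722.KapData.sz (xe ξ) (bt ξ)) *
          (1 / yN p.2.2.1 N l ^ 2)) := mul_le_mul_of_nonneg_left h4 hN0
      _ = _ := by ring
  have h5 := h3.add h1
  rw [zero_add] at h5
  exact h5.congr fun N => by ring

/-- **limits of the legs of a mark on the cores** -/
theorem limC_core (hκ : Kap0 D κ) (b : Bool) (h : CoreLeg D B p A (if b then -1 else 1) ξ lg)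
    (hy : ∀ k, 0 < p.2.2.1 k) (d : BDir R m) :
    Tendsto (fun N : ℝ => d.sca R m N * lg ((W R m).dpt B N p)
      (d.vec R m B ((W R m).dpt B N p))) atTop
      (𝓝 (legC κ R m ξ p.2.2.1 p.2.2.2.1 b d)) := by
  cases d with
  | u f => exact leg_zero h _ _ fun N => ⟨rfl, rfl, rfl⟩
  | ph f => exact leg_zero h _ _ fun N => ⟨rfl, rfl, rfl⟩
  | al l =>
    have h1 := leg_al h hy l
    simp only [BDir.sca, BDir.vec, one_mul, legC]
    exact h1
  | eul l =>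
    have h1 := leg_eul hκ h hy l (fun N => eulB R m B ((W R m).dpt B N p) l)
      fun N => ⟨rfl, rfl, rfl⟩
    simp only [BDir.sca, BDir.vec, legC]
    exact h1

/-- **classes that are constant on the pairs**, marks on the cores -/
theorem lim0_core (h : CoreLeg D B p A s ξ lg) (hy : ∀ k, 0 < p.2.2.1 k)
    (hb0 : ∀ k, bt ξ k = 0) :
    (∀ f : (W R m).Fr, Tendsto (fun N : ℝ => N * lg ((W R m).dpt B N p)
      ((W R m).vec (.ph f))) atTop (𝓝 0)) ∧
    ∀ l, Tendsto (fun N : ℝ => N * lg ((W R m).dpt B N p)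
      ((W R m).vec (.al l))) atTop (𝓝 0) := by
  refine ⟨fun f => leg_zero h _ _ fun N => ⟨rfl, rfl, rfl⟩, fun l => ?_⟩
  have hbt : bt ξ = 0 := funext hb0
  have h1 : Tendsto (fun N : ℝ => N * Real.exp (-(yN p.2.2.1 N l))) atTop (𝓝 0) := by
    have h2 : Tendsto (fun x : ℝ => x * Real.exp (-x)) atTop (𝓝 0) := by
      simpa using Real.tendsto_pow_mul_exp_neg_atTop_nhds_zero 1
    have h3 := (tendsto_div_yN hy l).mul (h2.comp (tendsto_yN hy l))
    rw [mul_zero] at h3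
    refine h3.congr' ?_
    filter_upwards [(tendsto_yN hy l).eventually_gt_atTop 0] with N hN
    simp only [Function.comp_apply]
    field_simp
  have h2 : Tendsto (fun N : ℝ => |s| * ((1 + 2 * A) * (D.A0 ‖p.2.2.2.1‖ * ‖xe ξ‖) *
      (N * Real.exp (-(yN p.2.2.1 N l))))) atTop (𝓝 0) := by
    simpa using (h1.const_mul ((1 + 2 * A) * (D.A0 ‖p.2.2.2.1‖ * ‖xe ξ‖))).const_mul |s|
  refine squeeze_zero_norm' ?_ h2
  filter_upwards [h, eventually_big D hy p.2.2.2.1, eventually_ge_atTop 0] with N hN hb hN0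
  obtain ⟨K0, K', x', hA0, hA1, hx, hl⟩ := hN
  have h4 := H545.UK_a_alpha (D := D) (K0 := K0) (K' := K') (B := pB R m) (x' := x') hb
    (fun k => norm_le_pi_norm p.2.2.2.1 k) hA0 hA1 (xe ξ) (v := (W R m).vec (.al l))
    (l := l) rfl (hx _ rfl)
  rw [hl, bs_dpt, hbt, Real.norm_eq_abs, abs_mul, abs_mul, abs_of_nonneg hN0]
  calc N * (|s| * |_|) ≤ N * (|s| * ((1 + 2 * A) * (D.A0 ‖p.2.2.2.1‖ * ‖xe ξ‖) *
        Real.exp (-(yN p.2.2.1 N l)))) :=
        mul_le_mul_of_nonneg_left (mul_le_mul_of_nonneg_left h4 (abs_nonneg s)) hN0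
    _ = _ := by ring

end Legs

end Vale.Agent.P273.H233.LimC

end
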