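import Vale.Agent.P273.H233.LimC
import Vale.Agent.P273.H132.LgU
import Vale.Agent.P273.H803.AsyQ

/-!
# P273, crew ASY0: `limC` and `lim0` of `lgU` at the marks of the cores
-/

noncomputable section

namespace Vale.Agent.P273.H233.LimC

open Set Filter H681 H95 H732 H562 H132 H803
open scoped Topology

theorem kap0_ok (U : UData) : Kap0 U.D (kap0 U) := by
  intro β k
  have h1 : H722.ib β = ∑ l, ((β l : ℝ) : ℂ) •
      (fun i : Fin 3 => if i = l then Complex.I / (Real.pi : ℂ) else 0) := by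
    funext i
    simp only [H722.ib, Finset.sum_apply, Pi.smul_apply, smul_eq_mul, mul_ite, mul_zero,
      Finset.sum_ite_eq, Finset.mem_univ, if_true]
    ring
  rw [h1, map_sum]
  simp only [map_smul, Finset.sum_apply, Pi.smul_apply, smul_eq_mul, Complex.re_sum,
    Complex.re_ofReal_mul, kap0, ← Finset.sum_neg_distrib]
  exact Finset.sum_congr rfl fun l _ => by ring

section

variable {R : H95.Region} {m : ∀ k, Fin (R.n k + 1)} {B : Set (W R m).Fr} {p : Co R m}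

/-- the legs of `lgU` at a mark on a core are `± UKD` with bounded data -/
theorem coreLeg_lgU (U : UData) {S : L → Bool} (hz : p.2.2.2.2 ∈ H975.zone R S (1 / 64) 11)
    (hy : ∀ k, 0 < p.2.2.1 k) {j : L} {b : Bool} (hj : R.pl j = Sum.inr b) (ξ : Fin 6 → ℝ) :
    CoreLeg U.D B p U.A (if b then -1 else 1) ξ (fun q => lgU U R m S j ξ q) := by
  set jj : R.Cm := ⟨j, by simp [hj]⟩ with hjj
  have hzj := hz jj (Set.mem_univ _)
  have h1 : Tendsto (fun N : ℝ => Real.exp (-mn (yN p.2.2.1 N))) atTop (𝓝 0) :=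
    Real.tendsto_exp_neg_atTop_nhds_zero.comp (tendsto_mn hy)
  unfold CoreLeg
  filter_upwards [eventually_big U.D hy p.2.2.2.1, h1.eventually_lt_const U.ρ_pos] with N hb hN
  set q : Co R m := (W R m).dpt B N p with hq
  have hbq : bP R m q = (yN p.2.2.1 N, p.2.2.2.1) := rfl
  have hep : ‖H722.ep (bP R m q)‖ < U.ρ :=
    (H722.KapData.norm_ep_le (mn_le (yN p.2.2.1 N))).trans_lt hN
  have hsj : q.2.2.2.2 jj = p.2.2.2.2 jj := rfl
  -- the core primitive at the point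
  have hK : DifferentiableAt ℝ (U.K (S j) (q.2.2.2.2 jj)) (H722.ep (bP R m q), q.2.2.2.2 jj) ∧
      ‖U.K (S j) (q.2.2.2.2 jj) (H722.ep (bP R m q), q.2.2.2.2 jj)‖ ≤ U.A ∧
      ‖fderiv ℝ (U.K (S j) (q.2.2.2.2 jj)) (H722.ep (bP R m q), q.2.2.2.2 jj)‖ ≤ U.A := by
    rw [hsj]
    cases hS : S j with
    | true =>
      have h2 : p.2.2.2.2 jj ∈ Metric.closedBall (0 : ℂ) 11⁻¹ := by
        simpa [hjj, hS] using hzj
      have h3 : ‖p.2.2.2.2 jj‖ ≤ 11⁻¹ := by simpa using h2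
      exact ⟨U.KI_diff _ _ hep h3, U.KI_le _ _ hep h3, U.KI'_le _ _ hep h3⟩
    | false =>
      have h2 : p.2.2.2.2 jj ∈ Metric.closedBall (0 : ℂ) 11 ∩ {z | ∀ l, 1 / 64 ≤ ‖z - ctr l‖} := by
        have h4 : (if S jj.1 then Metric.closedBall (0 : ℂ) 11⁻¹
          else Metric.closedBall (0 : ℂ) 11 ∩ {z | ∀ l, 1 / 64 ≤ ‖z - ctr l‖}) =
            Metric.closedBall (0 : ℂ) 11 ∩ {z | ∀ l, 1 / 64 ≤ ‖z - ctr l‖} := by
          rw [hjj]
          simp [hS]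
        rw [← h4]; exact hzj
      have h3 : ‖p.2.2.2.2 jj‖ ≤ 11 := by simpa using h2.1
      exact ⟨U.K_diff _ _ hep h3 h2.2, U.K_le _ _ hep h3 h2.2, U.K'_le _ _ hep h3 h2.2⟩
  refine ⟨U.K (S j) (q.2.2.2.2 jj) (H722.ep (bP R m q), q.2.2.2.2 jj),
    fderiv ℝ (U.K (S j) (q.2.2.2.2 jj)) (H722.ep (bP R m q), q.2.2.2.2 jj), sC R m jj,
    hK.2.1, hK.2.2, fun v hv => ?_, fun v => ?_⟩
  · rw [sC_apply, hv]; rfl
  · have h2 : HasFDerivAt (UKp m U ξ (S j) (q.2.2.2.2 jj) jj)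
        (H545.UKD U.D (U.K (S j) (q.2.2.2.2 jj) (H722.ep (bP R m q), q.2.2.2.2 jj))
          (fderiv ℝ (U.K (S j) (q.2.2.2.2 jj)) (H722.ep (bP R m q), q.2.2.2.2 jj))
          (xeF ξ) (btF ξ) (bP R m q) (bC R m) (sC R m jj)) q := by
      have hbig : U.D.Big (mn (yN p.2.2.1 N)) (bP R m q) := by rw [hbq]; exact hb
      exact H545.hasFDerivAt_UK hbig (hasFDerivAt_bP R m q) hK.1.hasFDerivAt
        ((sC R m jj).hasFDerivAt) (xeF ξ) (btF ξ)
    rw [lgU_core U R m S hj ξ q, h2.fderiv]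
    rfl

end

/-- **`limC` for `lgU`** -/
theorem limC_lgU (U : UData) : ∀ R m S, ∀ (B : Set (W R m).Fr) (p : Co R m), Gen R m S B p →
    (∀ k, 0 < p.2.2.1 k) → ∀ (j : L) (b : Bool), R.pl j = Sum.inr b → ∀ ξ : Fin 6 → ℝ,
    ∀ d : BDir R m,
    Tendsto (fun N : ℝ => d.sca R m N * lgU U R m S j ξ ((W R m).dpt B N p)
      (d.vec R m B ((W R m).dpt B N p))) atTop
      (𝓝 (legC (kap0 U) R m ξ p.2.2.1 p.2.2.2.1 b d)) := by
  intro R m S B p hp hy j b hj ξ d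
  exact limC_core (kap0_ok U) b (coreLeg_lgU U hp.2.2.2.2.1 hy hj ξ) hy d

/-- **`lim0` for `lgU`, marks of the cores** -/
theorem lim0_lgU_core (U : UData) : ∀ R m S, ∀ (B : Set (W R m).Fr) (p : Co R m),
    Gen R m S B p → (∀ k, 0 < p.2.2.1 k) → ∀ (j : L) (b : Bool), R.pl j = Sum.inr b →
    ∀ ξ : Fin 6 → ℝ, (∀ k, bt ξ k = 0) →
    (∀ f : (W R m).Fr, Tendsto (fun N : ℝ => N * lgU U R m S j ξ ((W R m).dpt B N p)
      ((W R m).vec (.ph f))) atTop (𝓝 0)) ∧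
    ∀ l, Tendsto (fun N : ℝ => N * lgU U R m S j ξ ((W R m).dpt B N p)
      ((W R m).vec (.al l))) atTop (𝓝 0) := by
  intro R m S B p hp hy j b hj ξ h0
  exact lim0_core (coreLeg_lgU U hp.2.2.2.2.1 hy hj ξ) hy h0

/-- **the three limit fields of `AsyQ` for `lgU`**, any class of marks of the cores (no instance of
`limN` exists there) -/
theorem coreLim (U : UData) (Q : MarkP) (hQ : ∀ R S j, Q R S j → ∃ b, R.pl j = Sum.inr b) :
    (∀ R m S, FarOk R S → ∀ (B : Set (W R m).Fr) (p : Co R m), Gen R m S B p →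
      (∀ k, 0 < p.2.2.1 k) → ∀ (j : L), Q R S j → ∀ (k : Fin 3) (h : R.pl j = Sum.inl k)
      (ξ : Fin 6 → ℝ), IsCl ξ → ∀ d : BDir R m, d.ok R m B →
      Tendsto (fun N : ℝ => d.sca R m N * lgU U R m S j ξ ((W R m).dpt B N p)
        (d.vec R m B ((W R m).dpt B N p))) atTop
        (𝓝 (legN (kap0 U) R m ξ p.2.2.1 p.2.2.2.1 k (depl R m B p h)
          (wreg.LX R.Cm R.n m k (rkF R h)) d))) ∧
    (∀ R m S, FarOk R S → ∀ (B : Set (W R m).Fr) (p : Co R m), Gen R m S B p →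
      (∀ k, 0 < p.2.2.1 k) → ∀ (j : L), Q R S j → ∀ (b : Bool), R.pl j = Sum.inr b →
      ∀ ξ : Fin 6 → ℝ, IsCl ξ → ∀ d : BDir R m, d.ok R m B →
      Tendsto (fun N : ℝ => d.sca R m N * lgU U R m S j ξ ((W R m).dpt B N p)
        (d.vec R m B ((W R m).dpt B N p))) atTop
        (𝓝 (legC (kap0 U) R m ξ p.2.2.1 p.2.2.2.1 b d))) ∧
    (∀ R m S, FarOk R S → ∀ (B : Set (W R m).Fr) (p : Co R m), Gen R m S B p →
      (∀ k, 0 < p.2.2.1 k) → ∀ (j : L), Q R S j → ∀ (ξ : Fin 6 → ℝ), IsCl ξ →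
      (∀ k, bt ξ k = 0) →
      (∀ f ∈ B, Tendsto (fun N : ℝ => N * lgU U R m S j ξ ((W R m).dpt B N p)
        ((W R m).vec (.ph f))) atTop (𝓝 0)) ∧
      ∀ l, Tendsto (fun N : ℝ => N * lgU U R m S j ξ ((W R m).dpt B N p)
        ((W R m).vec (.al l))) atTop (𝓝 0)) := by
  refine ⟨?_, ?_, ?_⟩
  · intro R m S _ B p _ _ j hj k h
    obtain ⟨b, hb⟩ := hQ R S j hj
    rw [h] at hb
    cases hb
  · intro R m S _ B p hp hy j _ b hb ξ _ d _
    exact limC_lgU U R m S B p hp hy j b hb ξ d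
  · intro R m S _ B p hp hy j hj ξ _ h0
    obtain ⟨b, hb⟩ := hQ R S j hj
    obtain ⟨h1, h2⟩ := lim0_lgU_core U R m S B p hp hy j b hb ξ h0
    exact ⟨fun f _ => h1 f, h2⟩

end Vale.Agent.P273.H233.LimC

end
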