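import Vale.Agent.P273.H732.Chart

/-!
# P273, LIM-CH-3: volume in the gap coordinates

`allE R : (R.Fr → ℝ) × (K → ℝ) ≃ₗ[ℝ] (G → ℝ)` sends `(u, y)` (free gaps, total sizes of the necks) to the
sizes of all the gaps; it has determinant one in the natural identification of the two index sets, it
preserves Lebesgue measure, and it is the size map `R.ug` (and the angle map `R.fg`) of `H732/Chart`.
-/

set_option linter.unusedSectionVars false
set_option linter.unusedVariables false

noncomputable section

open MeasureTheory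

namespace Vale.Agent.P273.H233.Vol

open Vale.Agent.P273.H732

variable {K G : Type} [DecidableEq K] [DecidableEq G] [Fintype G] (R : Reg K G)

/-- the free gaps and the necks are together the gaps -/
def fk : R.Fr ⊕ K ≃ G where
  toFun := Sum.elim (fun f => f.1) R.last
  invFun g := if h : g ≠ R.last (R.nk g) then Sum.inl ⟨g, h⟩ else Sum.inr (R.nk g)
  left_inv := by
    rintro (f | k)
    · simp [f.2]
    · simp [R.nk_last]
  right_inv := by
    intro g
    by_cases h : g ≠ R.last (R.nk g)
    · simp [h]
    · have h' : g = R.last (R.nk g) := not_not.1 h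
      have e : (if h : g ≠ R.last (R.nk g) then (Sum.inl ⟨g, h⟩ : R.Fr ⊕ K) else Sum.inr (R.nk g))
          = Sum.inr (R.nk g) := dif_neg h
      show Sum.elim (fun f : R.Fr => f.1) R.last
        (if h : g ≠ R.last (R.nk g) then (Sum.inl ⟨g, h⟩ : R.Fr ⊕ K) else Sum.inr (R.nk g)) = g
      rw [e]
      exact h'.symm

@[simp] theorem fk_inl (f : R.Fr) : fk R (Sum.inl f) = f.1 := rfl

@[simp] theorem fk_inr (k : K) : fk R (Sum.inr k) = R.last k := rfl

theorem fk_symm_free (g : G) (h : g ≠ R.last (R.nk g)) : (fk R).symm g = Sum.inl ⟨g, h⟩ := by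
  rw [Equiv.symm_apply_eq]; rfl

theorem fk_symm_last (k : K) : (fk R).symm (R.last k) = Sum.inr k := by
  rw [Equiv.symm_apply_eq]; rfl

/-- total size of the free gaps of a neck -/
def fs (u : R.Fr → ℝ) (k : K) : ℝ := ∑ f : R.Fr, if R.nk f.1 = k then u f else 0

/-- sizes of all the gaps from the free ones and the totals -/
def all (p : (R.Fr → ℝ) × (K → ℝ)) (g : G) : ℝ :=
  if h : g ≠ R.last (R.nk g) then p.1 ⟨g, h⟩ else p.2 (R.nk g) - fs R p.1 (R.nk g)

/-- the totals -/
def tot (v : G → ℝ) (k : K) : ℝ := ∑ g : G, if R.nk g = k then v g else 0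

theorem ug_eq_all {C : Type} (p : R.Co C) : R.ug p = all R (p.1, p.2.2.1) := rfl

theorem fg_eq_all {C : Type} (p : R.Co C) : R.fg p = all R (p.2.1, p.2.2.2.1) := rfl

theorem all_free (p : (R.Fr → ℝ) × (K → ℝ)) (f : R.Fr) : all R p f.1 = p.1 f := by
  unfold all; rw [dif_pos f.2]

theorem all_last (p : (R.Fr → ℝ) × (K → ℝ)) (k : K) :
    all R p (R.last k) = p.2 k - fs R p.1 k := by
  unfold all; rw [dif_neg (by rw [R.nk_last]; simp), R.nk_last]

variable [Fintype K]

/-- a sum over the gaps is a sum over the free gaps and a sum over the necks -/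
theorem sum_gaps {A : Type*} [AddCommMonoid A] (a : G → A) :
    ∑ g, a g = (∑ f : R.Fr, a f.1) + ∑ k, a (R.last k) := by
  rw [← (fk R).sum_comp, Fintype.sum_sum_type]
  rfl

theorem tot_eq (v : G → ℝ) (k : K) :
    tot R v k = fs R (fun f => v f.1) k + v (R.last k) := by
  unfold tot fs
  rw [sum_gaps R]
  simp only [R.nk_last]
  simp

theorem tot_all (p : (R.Fr → ℝ) × (K → ℝ)) (k : K) : tot R (all R p) k = p.2 k := by
  rw [tot_eq, all_last]
  simp only [all_free]
  ring

theorem fs_add (u w : R.Fr → ℝ) (k : K) : fs R (u + w) k = fs R u k + fs R w k := by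
  unfold fs
  rw [← Finset.sum_add_distrib]
  refine Finset.sum_congr rfl fun f _ => ?_
  split_ifs <;> simp

theorem fs_smul (c : ℝ) (u : R.Fr → ℝ) (k : K) : fs R (c • u) k = c * fs R u k := by
  unfold fs
  rw [Finset.mul_sum]
  refine Finset.sum_congr rfl fun f _ => ?_
  split_ifs <;> simp

/-- **sizes of all the gaps, as a linear equivalence** -/
def allE : ((R.Fr → ℝ) × (K → ℝ)) ≃ₗ[ℝ] (G → ℝ) where
  toFun p := all R p
  map_add' p q := by
    funext g
    simp only [all, Pi.add_apply, Prod.fst_add, Prod.snd_add, fs_add]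
    split_ifs
    · rfl
    · ring
  map_smul' c p := by
    funext g
    simp only [all, Pi.smul_apply, Prod.smul_fst, Prod.smul_snd, fs_smul, smul_eq_mul,
      RingHom.id_apply]
    split_ifs
    · rfl
    · ring
  invFun v := (fun f => v f.1, fun k => tot R v k)
  left_inv p := by
    refine Prod.ext ?_ ?_
    · funext f; exact all_free R p f
    · funext k; exact tot_all R p k
  right_inv v := by
    funext g
    simp only
    by_cases h : g ≠ R.last (R.nk g)
    · exact all_free R _ ⟨g, h⟩
    · have h' : g = R.last (R.nk g) := not_not.1 h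
      rw [h', all_last]
      show tot R v (R.nk g) - fs R (fun f => v f.1) (R.nk g) = v (R.last (R.nk g))
      rw [tot_eq]
      ring

@[simp] theorem allE_apply (p : (R.Fr → ℝ) × (K → ℝ)) : allE R p = all R p := rfl

@[simp] theorem allE_symm_apply (v : G → ℝ) :
    (allE R).symm v = (fun f => v f.1, fun k => tot R v k) := rfl

/-- the shear `(u, y) ↦ (u, y - Σ u)` -/
def shear (p : (R.Fr → ℝ) × (K → ℝ)) : (R.Fr → ℝ) × (K → ℝ) := (p.1, fun k => p.2 k - fs R p.1 k)

/-- the identification of the index sets -/
def idx (p : (R.Fr → ℝ) × (K → ℝ)) (g : G) : ℝ := Sum.elim p.1 p.2 ((fk R).symm g)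

theorem idx_shear (p : (R.Fr → ℝ) × (K → ℝ)) : idx R (shear R p) = all R p := by
  funext g
  unfold idx
  by_cases h : g ≠ R.last (R.nk g)
  · rw [fk_symm_free R g h]
    simp [shear, all, h]
  · have h' : g = R.last (R.nk g) := not_not.1 h
    rw [h', fk_symm_last, all_last]
    simp [shear]

theorem measurePreserving_shear :
    MeasurePreserving (shear R) (volume : Measure ((R.Fr → ℝ) × (K → ℝ))) volume := by
  have hfs : Measurable (fun u : R.Fr → ℝ => fs R u) := by
    refine measurable_pi_lambda _ fun k => ?_
    unfold fs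
    refine Finset.measurable_sum _ fun f _ => ?_
    split_ifs
    · exact measurable_pi_apply f
    · exact measurable_const
  have h := MeasurePreserving.skew_product (μa := (volume : Measure (R.Fr → ℝ)))
    (μb := (volume : Measure (R.Fr → ℝ))) (μc := (volume : Measure (K → ℝ)))
    (μd := (volume : Measure (K → ℝ))) (f := id) (MeasurePreserving.id _)
    (g := fun u y => y - fs R u)
    (by
      have h1 : Measurable (fun p : (R.Fr → ℝ) × (K → ℝ) => p.2 - fs R p.1) :=
        measurable_snd.sub (hfs.comp measurable_fst)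
      exact h1)
    (Filter.Eventually.of_forall fun u => (measurePreserving_sub_right volume (fs R u)).map_eq)
  exact h

theorem measurePreserving_idx :
    MeasurePreserving (idx R) (volume : Measure ((R.Fr → ℝ) × (K → ℝ))) volume := by
  have h1 := volume_measurePreserving_sumPiEquivProdPi_symm (fun _ : R.Fr ⊕ K => ℝ)
  have h2 := volume_measurePreserving_piCongrLeft (fun _ : G => ℝ) (fk R)
  have h3 := h2.comp h1
  have e : (idx R) = (MeasurableEquiv.piCongrLeft (fun _ : G => ℝ) (fk R)) ∘
      (MeasurableEquiv.sumPiEquivProdPi (fun _ : R.Fr ⊕ K => ℝ)).symm := by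
    funext p
    funext g
    obtain ⟨s, rfl⟩ := (fk R).surjective g
    simp only [Function.comp_apply]
    rw [MeasurableEquiv.piCongrLeft_apply_apply]
    unfold idx
    rw [Equiv.symm_apply_apply]
    rcases s with f | k <;> rfl
  rw [e]
  exact h3

/-- **the gap coordinates preserve Lebesgue measure** -/
theorem measurePreserving_all :
    MeasurePreserving (all R) (volume : Measure ((R.Fr → ℝ) × (K → ℝ))) volume := by
  have h := (measurePreserving_idx R).comp (measurePreserving_shear R)
  have e : all R = idx R ∘ shear R := by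
    funext p; exact (idx_shear R p).symm
  rw [e]; exact h

theorem measurePreserving_allE :
    MeasurePreserving (allE R) (volume : Measure ((R.Fr → ℝ) × (K → ℝ))) volume :=
  measurePreserving_all R

/-- the gap coordinates as a homeomorphism -/
def allH : ((R.Fr → ℝ) × (K → ℝ)) ≃ₜ (G → ℝ) := (allE R).toContinuousLinearEquiv.toHomeomorph

@[simp] theorem allH_apply (p : (R.Fr → ℝ) × (K → ℝ)) : allH R p = all R p := rfl

theorem measurableEmbedding_all : MeasurableEmbedding (all R) :=
  (allH R).measurableEmbedding

/-- lower integrals in the gap coordinates -/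
theorem lintegral_all (F : (G → ℝ) → ENNReal) :
    ∫⁻ v, F v = ∫⁻ p : (R.Fr → ℝ) × (K → ℝ), F (all R p) :=
  ((measurePreserving_all R).lintegral_comp_emb (measurableEmbedding_all R) F).symm

/-- integrals in the gap coordinates -/
theorem integral_all {E : Type*} [NormedAddCommGroup E] [NormedSpace ℝ E] (F : (G → ℝ) → E) :
    ∫ v, F v = ∫ p : (R.Fr → ℝ) × (K → ℝ), F (all R p) :=
  ((measurePreserving_all R).integral_comp (measurableEmbedding_all R) F).symm

theorem integrable_all_iff {E : Type*} [NormedAddCommGroup E] (F : (G → ℝ) → E) :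
    Integrable F ↔ Integrable (fun p : (R.Fr → ℝ) × (K → ℝ) => F (all R p)) :=
  ((measurePreserving_all R).integrable_comp_emb (measurableEmbedding_all R)).symm

/-- integrals over a set in the gap coordinates -/
theorem setIntegral_all {E : Type*} [NormedAddCommGroup E] [NormedSpace ℝ E] (S : Set (G → ℝ))
    (F : (G → ℝ) → E) :
    ∫ v in S, F v = ∫ p : (R.Fr → ℝ) × (K → ℝ) in all R ⁻¹' S, F (all R p) :=
  ((measurePreserving_all R).setIntegral_preimage_emb (measurableEmbedding_all R) F S).symm

theorem setLIntegral_all (S : Set (G → ℝ)) (F : (G → ℝ) → ENNReal) :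
    ∫⁻ v in S, F v = ∫⁻ p : (R.Fr → ℝ) × (K → ℝ) in all R ⁻¹' S, F (all R p) :=
  ((measurePreserving_all R).setLIntegral_comp_preimage_emb (measurableEmbedding_all R) F S).symm

/-- the region in the gap coordinates -/
theorem inr_iff {C : Type} [Fintype C] [DecidableEq C] (p : R.Co C) : R.Inr p ↔
    (∀ f : R.Fr, 0 ≤ R.ug p f.1) ∧ ∀ g : G, R.ug p g ≤ R.ug p (R.last (R.nk g)) := by
  constructor
  · intro h
    refine ⟨fun f => ?_, fun g => ?_⟩
    · rw [R.ug_free]; exact h.1 f
    · by_cases hg : g ≠ R.last (R.nk g)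
      · have := h.2 ⟨g, hg⟩
        rw [R.ug_last]
        have e : R.ug p g = p.1 ⟨g, hg⟩ := R.ug_free p ⟨g, hg⟩
        rw [e]; exact this
      · have h' : g = R.last (R.nk g) := not_not.1 hg
        rw [← h']
  · intro h
    refine ⟨fun f => ?_, fun f => ?_⟩
    · have := h.1 f
      rwa [R.ug_free] at this
    · have := h.2 f.1
      rwa [R.ug_free, R.ug_last] at this

/-! ### determinants and frames -/

/-- the shear as a linear map -/
def shearL : ((R.Fr → ℝ) × (K → ℝ)) →ₗ[ℝ] ((R.Fr → ℝ) × (K → ℝ)) where
  toFun := shear R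
  map_add' p q := by
    refine Prod.ext rfl (funext fun k => ?_)
    simp only [shear, Prod.fst_add, Prod.snd_add, Pi.add_apply, fs_add]
    ring
  map_smul' c p := by
    refine Prod.ext rfl (funext fun k => ?_)
    simp only [shear, Prod.smul_fst, Prod.smul_snd, Pi.smul_apply, fs_smul, smul_eq_mul,
      RingHom.id_apply]
    ring

theorem fs_single (f : R.Fr) (k : K) :
    fs R (Pi.single f 1) k = if R.nk f.1 = k then 1 else 0 := by
  unfold fs
  rw [Finset.sum_eq_single f]
  · simp
  · intro b _ hb
    simp [Pi.single_eq_of_ne hb]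
  · simp

theorem fs_zero (k : K) : fs R (0 : R.Fr → ℝ) k = 0 := by
  unfold fs; simp

/-- the gap coordinates have determinant one -/
theorem det_shearL : LinearMap.det (shearL R) = 1 := by
  classical
  rw [← LinearMap.det_toMatrix ((Pi.basisFun ℝ R.Fr).prod (Pi.basisFun ℝ K))]
  have h : LinearMap.toMatrix ((Pi.basisFun ℝ R.Fr).prod (Pi.basisFun ℝ K))
      ((Pi.basisFun ℝ R.Fr).prod (Pi.basisFun ℝ K)) (shearL R) =
      Matrix.fromBlocks 1 0 (Matrix.of fun k f => -(if R.nk f.1 = k then (1 : ℝ) else 0)) 1 := by
    ext i j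
    rcases i with i | i <;> rcases j with j | j
    · simp [LinearMap.toMatrix_apply, shearL, shear, Matrix.one_apply, Pi.single_apply]
    · simp [LinearMap.toMatrix_apply, shearL, shear]
    · simp [LinearMap.toMatrix_apply, shearL, shear, fs_single]
    · simp [LinearMap.toMatrix_apply, shearL, shear, Matrix.one_apply, Pi.single_apply, fs_zero]
  rw [h, Matrix.det_fromBlocks_zero₁₂]
  simp

end Vale.Agent.P273.H233.Vol

namespace Vale.Agent.P273.H233

/-- **column operations**: adding multiples of unmodified vectors does not change the value of an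
alternating form -/
theorem alt_shear {ι E F : Type*} [DecidableEq ι] [AddCommGroup E] [Module ℝ E]
    [AddCommGroup F] [Module ℝ F] (Θ : E [⋀^ι]→ₗ[ℝ] F) (w : ι → E) (S : Finset ι) (t : ι → ι)
    (c : ι → ℝ) (ht : ∀ i ∈ S, t i ∉ S) :
    Θ (fun i => if i ∈ S then w i + c i • w (t i) else w i) = Θ w := by
  induction S using Finset.induction_on with
  | empty => simp
  | insert a S ha ih =>
    have ih' := ih (fun i hi => fun h => ht i (Finset.mem_insert_of_mem hi)
      (Finset.mem_insert_of_mem h))
    have hta : t a ∉ insert a S := ht a (Finset.mem_insert_self a S)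
    have hta1 : t a ≠ a := fun h => hta (by rw [h]; exact Finset.mem_insert_self a S)
    have hta2 : t a ∉ S := fun h => hta (Finset.mem_insert_of_mem h)
    set v : ι → E := fun i => if i ∈ S then w i + c i • w (t i) else w i with hv
    have e : (fun i => if i ∈ insert a S then w i + c i • w (t i) else w i)
        = Function.update v a (w a + c a • w (t a)) := by
      funext i
      by_cases h : i = a
      · subst h; simp
      · simp [hv, h]
    rw [e, Θ.map_update_add, Θ.map_update_smul]
    have e1 : Function.update v a (w a) = v := by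
      have : v a = w a := by simp [hv, ha]
      rw [← this, Function.update_eq_self]
    have e2 : Θ (Function.update v a (w (t a))) = 0 := by
      refine Θ.map_eq_zero_of_eq _ (i := a) (j := t a) ?_ hta1.symm
      rw [Function.update_self, Function.update_of_ne hta1]
      simp [hv, hta2]
    rw [e1, e2, smul_zero, add_zero]
    exact ih'

/-- the same for continuous alternating forms -/
theorem calt_shear {ι E F : Type*} [DecidableEq ι] [NormedAddCommGroup E] [NormedSpace ℝ E]
    [NormedAddCommGroup F] [NormedSpace ℝ F] (Θ : E [⋀^ι]→L[ℝ] F) (w : ι → E) (S : Finset ι)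
    (t : ι → ι) (c : ι → ℝ) (ht : ∀ i ∈ S, t i ∉ S) :
    Θ (fun i => if i ∈ S then w i + c i • w (t i) else w i) = Θ w :=
  alt_shear Θ.toAlternatingMap w S t c ht

/-- **frames of the gap coordinates**: the images of the coordinate vectors of `(u, y)` under the gap
coordinates are `e_f - e_last` and `e_last`; an alternating form has the same value on them and on the
frame of all the gaps.  `w` is any family of vectors, `e : G → ι` any injective placement. -/
theorem alt_gaps {K G ι E F : Type*} [DecidableEq ι] [AddCommGroup E] [Module ℝ E]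
    [AddCommGroup F] [Module ℝ F] [Fintype G] [DecidableEq G] (nk : G → K) (last : K → G)
    (nk_last : ∀ k, nk (last k) = k) (Θ : E [⋀^ι]→ₗ[ℝ] F) (w : ι → E) (e : G → ι)
    (he : Function.Injective e) (v : ι → E)
    (hv : ∀ i, (∀ g, g ≠ last (nk g) → e g ≠ i) → v i = w i)
    (hf : ∀ g, g ≠ last (nk g) → v (e g) = w (e g) - w (e (last (nk g)))) :
    Θ v = Θ w := by
  classical
  set S : Finset ι := (Finset.univ.filter fun g : G => g ≠ last (nk g)).image e with hS
  have hmem : ∀ i, i ∈ S ↔ ∃ g, g ≠ last (nk g) ∧ e g = i := by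
    intro i; simp [hS]
  set t : ι → ι := fun i => if h : ∃ g, e g = i then e (last (nk h.choose)) else i with ht
  have htg : ∀ g, t (e g) = e (last (nk g)) := by
    intro g
    have h : ∃ g', e g' = e g := ⟨g, rfl⟩
    simp only [ht, dif_pos h]
    rw [he h.choose_spec]
  have key := alt_shear Θ w S t (fun _ => -1) (by
    intro i hi
    obtain ⟨g, hg, rfl⟩ := (hmem i).1 hi
    rw [htg, hmem]
    rintro ⟨g', hg', h⟩
    have h2 := he h
    apply hg'
    rw [h2, nk_last])
  rw [← key]
  congr 1
  funext i
  by_cases hi : i ∈ S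
  · rw [if_pos hi]
    obtain ⟨g, hg, rfl⟩ := (hmem i).1 hi
    rw [hf g hg, htg]
    simp [sub_eq_add_neg]
  · rw [if_neg hi]
    apply hv
    intro g hg h
    exact hi ((hmem i).2 ⟨g, hg, h⟩)

end Vale.Agent.P273.H233
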